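import Vale.Agent.P154.TT.T15Chk0
import Vale.Agent.P154.TT.T15Chk1
import Vale.Agent.P154.TT.T15Chk2
import Vale.Agent.P154.TT.T15Chk3
import Vale.Agent.P154.TT.T15Chk4
import Vale.Agent.P154.TT.T15Chk5
import Vale.Agent.P154.TT.T15Chk6
import Vale.Agent.P154.TT.T15Chk7
import Vale.Agent.P154.TT.T15Chk8
import Vale.Agent.P154.TT.T15Chk9
import Vale.Agent.P154.TT.T15Chk10
import Vale.Agent.P154.TT.T15Chk11
import Vale.Agent.P154.TT.T15Chk12
import Vale.Agent.P154.TT.T15Chk13
import Vale.Agent.P154.TT.T15Chk14
import Vale.Agent.P154.TT.T15Chk15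
import Vale.Agent.P154.TT.T15Chk16
import Vale.Agent.P154.TT.T15Chk17
import Vale.Agent.P154.TT.T15Chk18
import Vale.Agent.P154.TT.T15Chk19
import Vale.Agent.P154.TT.T15Chk20
import Vale.Agent.P154.TT.T15Chk21
import Vale.Agent.P154.TT.T15Chk22

/-! # P154 q = 4: the packed coefficient checks for the closure certificate `T15` -/

namespace Vale.Agent.P154

open Vale.Agent.Util.Polya

set_option maxRecDepth 100000

theorem goodT15 : good 15 15 167 (certE 15 0 1 0 1 LdT15 [XpsT15, XcT15] [XcT15, XpsT15]) = true := by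
  decide +kernel

theorem bndT15 : 2 * bnd (certE 15 0 1 0 1 LdT15 [XpsT15, XcT15] [XcT15, XpsT15]) < 2 ^ 167 := by
  decide +kernel

theorem check_glueT15 {w S D : ℕ} {L : List (PE × PE)} (r0 n m r1 t : ℕ) (e1 : r0 + n = r1) (e2 : n + m = t)
    (h1 : check w S D L r0 n = true) (h2 : check w S D L r1 m = true) : check w S D L r0 t = true := by
  subst e1
  subst e2
  exact check_append h1 h2

theorem checkT15 : check 167 16 15 (certE 15 0 1 0 1 LdT15 [XpsT15, XcT15] [XcT15, XpsT15]) 0 (16 * 16) = true := by
  have h0 := checkT15_0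
  have h1 := check_glueT15 0 2 3 2 5 (by norm_num) (by norm_num) h0 checkT15_1
  have h2 := check_glueT15 0 5 4 5 9 (by norm_num) (by norm_num) h1 checkT15_2
  have h3 := check_glueT15 0 9 7 9 16 (by norm_num) (by norm_num) h2 checkT15_3
  have h4 := check_glueT15 0 16 2 16 18 (by norm_num) (by norm_num) h3 checkT15_4
  have h5 := check_glueT15 0 18 3 18 21 (by norm_num) (by norm_num) h4 checkT15_5
  have h6 := check_glueT15 0 21 5 21 26 (by norm_num) (by norm_num) h5 checkT15_6
  have h7 := check_glueT15 0 26 7 26 33 (by norm_num) (by norm_num) h6 checkT15_7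
  have h8 := check_glueT15 0 33 3 33 36 (by norm_num) (by norm_num) h7 checkT15_8
  have h9 := check_glueT15 0 36 5 36 41 (by norm_num) (by norm_num) h8 checkT15_9
  have h10 := check_glueT15 0 41 9 41 50 (by norm_num) (by norm_num) h9 checkT15_10
  have h11 := check_glueT15 0 50 4 50 54 (by norm_num) (by norm_num) h10 checkT15_11
  have h12 := check_glueT15 0 54 11 54 65 (by norm_num) (by norm_num) h11 checkT15_12
  have h13 := check_glueT15 0 65 4 65 69 (by norm_num) (by norm_num) h12 checkT15_13
  have h14 := check_glueT15 0 69 12 69 81 (by norm_num) (by norm_num) h13 checkT15_14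
  have h15 := check_glueT15 0 81 5 81 86 (by norm_num) (by norm_num) h14 checkT15_15
  have h16 := check_glueT15 0 86 12 86 98 (by norm_num) (by norm_num) h15 checkT15_16
  have h17 := check_glueT15 0 98 14 98 112 (by norm_num) (by norm_num) h16 checkT15_17
  have h18 := check_glueT15 0 112 6 112 118 (by norm_num) (by norm_num) h17 checkT15_18
  have h19 := check_glueT15 0 118 16 118 134 (by norm_num) (by norm_num) h18 checkT15_19
  have h20 := check_glueT15 0 134 27 134 161 (by norm_num) (by norm_num) h19 checkT15_20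
  have h21 := check_glueT15 0 161 47 161 208 (by norm_num) (by norm_num) h20 checkT15_21
  have h22 := check_glueT15 0 208 48 208 256 (by norm_num) (by norm_num) h21 checkT15_22
  exact h22

theorem goodT15A : good 15 0 98 (oneE 15 0 1 XcT15) = true := by
  decide +kernel

theorem bndT15A : 2 * bnd (oneE 15 0 1 XcT15) < 2 ^ 98 := by
  decide +kernel

theorem checkT15A : check 98 16 15 (oneE 15 0 1 XcT15) 0 (16 * 16) = true := by
  decide +kernel

end Vale.Agent.P154
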